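import Vale.Agent.Lib.P037.AllTwo

namespace Vale.Agent.Lib.P037

open Finset

/-- the `k × k` block pattern obtained from the `2 × 2` pattern `H` by repeating its first row
`t` times, its second row `k - t` times, its first column `s` times and its second column
`k - s` times -/
def blockPattern (H : Fin 2 → Fin 2 → Bool) (k t s : ℕ) : Fin k → Fin k → Bool :=
  fun i j => H (if i.val < t then 0 else 1) (if j.val < s then 0 else 1)

/-- rows `u < v` and columns `c < d` carry a copy of the `2 × 2` pattern `H` -/
def IsCopy {n : ℕ} (H : Fin 2 → Fin 2 → Bool) (A : Fin n → Fin n → Bool) (u v c d : Fin n) :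
    Prop :=
  u < v ∧ c < d ∧ A u c = H 0 0 ∧ A u d = H 0 1 ∧ A v c = H 1 0 ∧ A v d = H 1 1

instance {n : ℕ} (H : Fin 2 → Fin 2 → Bool) (A : Fin n → Fin n → Bool) (u v c d : Fin n) :
    Decidable (IsCopy H A u v c d) := by
  unfold IsCopy
  infer_instance

/-- tuples of `a` upper rows, `b` lower rows, `s` left columns and `t` right columns, with
repetitions allowed, all of whose choices of one index each carry a copy of `H` -/
def homSet {n : ℕ} (H : Fin 2 → Fin 2 → Bool) (A : Fin n → Fin n → Bool) (a b s t : ℕ) :
    Finset ((Fin a → Fin n) × (Fin b → Fin n) × (Fin s → Fin n) × (Fin t → Fin n)) :=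
  univ.filter (fun x => ∀ i i' j j', IsCopy H A (x.1 i) (x.2.1 i') (x.2.2.1 j) (x.2.2.2 j'))

end Vale.Agent.Lib.P037
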